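import Mathlib

namespace Vale.Agent.P123

/-- The numerical range: all values of the inner product of `A x` with `x` over unit vectors.
Mathlib's inner product is linear in its second argument. -/
def numRange {H : Type*} [NormedAddCommGroup H] [InnerProductSpace ℂ H] (A : H →L[ℂ] H) : Set ℂ :=
  {z | ∃ x : H, ‖x‖ = 1 ∧ z = inner ℂ x (A x)}

end Vale.Agent.P123
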