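import Mathlib

namespace Vale.Agent.P123

open Complex

structure Poly (W : Set ℂ) (δ : ℝ) where
  N : ℕ
  v : ℕ → ℂ
  a : ℕ → ℂ
  l : ℕ → ℝ
  ε : ℝ
  hN : 0 < N
  hε : 0 < ε
  closed : v N = v 0
  ha : ∀ k, ‖a k‖ = 1
  hl : ∀ k, 0 < l k
  edge : ∀ k, v (k + 1) = v k + I * a k * l k
  sep : ∀ k, ∀ w ∈ W, ε ≤ ((starRingEnd ℂ) (a k) * (v k - w)).re
  near : ∀ k, ∃ w ∈ W, ‖v k - w‖ ≤ δ

lemma near_aux {W : Set ℂ} (hW : Convex ℝ W) {R ε c s : ℝ} (hR : ∀ w ∈ W, ‖w‖ ≤ R) (hε : 0 < ε)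
    (hc : 1 / 2 ≤ c) (hc1 : c ≤ 1) (hs : 0 < s) (hcs : 1 ≤ c + s) {a v w1 w2 : ℂ} (ha : ‖a‖ = 1)
    (h1 : w1 ∈ W) (h2 : w2 ∈ W)
    (a1 : ∀ w ∈ W, ε ≤ ((starRingEnd ℂ) a * (v - w)).re)
    (a2 : ∀ w ∈ W, ε ≤ c * ((starRingEnd ℂ) a * (v - w)).re + s * ((starRingEnd ℂ) a * (v - w)).im)
    (b1 : ((starRingEnd ℂ) a * (v - w1)).re ≤ ε + ε * (1 - c))
    (b2 : c * ((starRingEnd ℂ) a * (v - w2)).re + s * ((starRingEnd ℂ) a * (v - w2)).im ≤ ε + ε * (1 - c)) :
    ∃ w ∈ W, ‖v - w‖ ≤ 6 * ε + 4 * R * s := by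
  have hR0 : 0 ≤ R := le_trans (norm_nonneg _) (hR w1 h1)
  have hn : ∀ z : ℂ, ‖(starRingEnd ℂ) a * z‖ = ‖z‖ := fun z => by simp [ha]
  have c1 := a1 w1 h1
  have c2 := a1 w2 h2
  have c3 := a2 w1 h1
  have c4 : ((starRingEnd ℂ) a * (v - w1)).im - ((starRingEnd ℂ) a * (v - w2)).im ≤ 2 * R := by
    have e : ((starRingEnd ℂ) a * (v - w1)).im - ((starRingEnd ℂ) a * (v - w2)).im =
        ((starRingEnd ℂ) a * (w2 - w1)).im := by rw [← sub_im]; congr 1; ring
    rw [e]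
    refine (im_le_norm _).trans ?_
    rw [hn]
    linarith [norm_sub_le w2 w1, hR w1 h1, hR w2 h2]
  obtain ⟨p1, hp1⟩ : ∃ p, p = ((starRingEnd ℂ) a * (v - w1)).re := ⟨_, rfl⟩
  obtain ⟨t1, ht1⟩ : ∃ p, p = ((starRingEnd ℂ) a * (v - w1)).im := ⟨_, rfl⟩
  obtain ⟨p2, hp2⟩ : ∃ p, p = ((starRingEnd ℂ) a * (v - w2)).re := ⟨_, rfl⟩
  obtain ⟨t2, ht2⟩ : ∃ p, p = ((starRingEnd ℂ) a * (v - w2)).im := ⟨_, rfl⟩
  simp only [← hp1, ← ht1, ← hp2, ← ht2] at b1 b2 c1 c2 c3 c4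
  have d1 : 0 ≤ t1 := by
    have : 0 ≤ s * t1 := by nlinarith [mul_nonneg hε.le (sq_nonneg (1 - c))]
    exact nonneg_of_mul_nonneg_right this hs |> fun h => h
  rcases le_or_gt 0 t2 with d2 | d2
  · refine ⟨w2, h2, ?_⟩
    rw [← hn]
    refine (norm_le_abs_re_add_abs_im _).trans ?_
    rw [← hp2, ← ht2, abs_of_nonneg d2, abs_of_nonneg (by linarith)]
    have e1 : t2 ≤ 2 * ε := by
      have : s * t2 ≤ s * (2 * ε) := by nlinarith
      exact le_of_mul_le_mul_left this hs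
    have e2 : p2 ≤ 4 * ε := by nlinarith [mul_nonneg hs.le d2]
    nlinarith [mul_nonneg hR0 hs.le]
  · have hd : 0 < t1 - t2 := by linarith
    refine ⟨(-t2 / (t1 - t2)) • w1 + (t1 / (t1 - t2)) • w2,
      hW h1 h2 (div_nonneg (by linarith) hd.le) (div_nonneg d1 hd.le) (by field_simp; ring), ?_⟩
    rw [← hn]
    have e : (starRingEnd ℂ) a * (v - ((-t2 / (t1 - t2)) • w1 + (t1 / (t1 - t2)) • w2)) =
        (((-t2 * p1 + t1 * p2) / (t1 - t2) : ℝ) : ℂ) := by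
      have f1 : (starRingEnd ℂ) a * (v - w1) = p1 + t1 * I := by rw [hp1, ht1, re_add_im]
      have f2 : (starRingEnd ℂ) a * (v - w2) = p2 + t2 * I := by rw [hp2, ht2, re_add_im]
      have hd' : ((t1 : ℂ) - t2) ≠ 0 := by exact_mod_cast hd.ne'
      simp only [real_smul]
      push_cast
      field_simp
      linear_combination (-t2 : ℂ) * f1 + (t1 : ℂ) * f2
    rw [e, norm_real, Real.norm_eq_abs, abs_of_nonneg (div_nonneg (by nlinarith) hd.le),
      div_le_iff₀ hd]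
    have e2 : p2 ≤ 4 * ε + 4 * R * s := by nlinarith [mul_le_mul_of_nonneg_left (show -t2 ≤ 2 * R by linarith) hs.le]
    have e3 : p1 ≤ 2 * ε := by nlinarith
    have e4 := mul_nonneg hR0 hs.le
    nlinarith

lemma exists_poly {W : Set ℂ} (hW : Convex ℝ W) (hne : W.Nonempty) {R : ℝ} (hR : ∀ w ∈ W, ‖w‖ ≤ R)
    {δ : ℝ} (hδ : 0 < δ) : Nonempty (Poly W δ) := by
  have hR0 : 0 ≤ R := by obtain ⟨w, hw⟩ := hne; exact le_trans (norm_nonneg _) (hR w hw)
  let h : ℂ → ℝ := fun a => sSup ((fun w => ((starRingEnd ℂ) a * w).re) '' W)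
  have hbdd : ∀ a : ℂ, BddAbove ((fun w => ((starRingEnd ℂ) a * w).re) '' W) := by
    intro a
    refine ⟨‖a‖ * R, ?_⟩
    rintro _ ⟨w, hw, rfl⟩
    refine (re_le_norm _).trans ?_
    rw [norm_mul, RCLike.norm_conj]
    exact mul_le_mul_of_nonneg_left (hR w hw) (norm_nonneg _)
  have le_h : ∀ a, ∀ w ∈ W, ((starRingEnd ℂ) a * w).re ≤ h a := fun a w hw =>
    le_csSup (hbdd a) ⟨w, hw, rfl⟩
  have near_h : ∀ a, ∀ η > 0, ∃ w ∈ W, h a - η < ((starRingEnd ℂ) a * w).re := by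
    intro a η hη
    obtain ⟨_, ⟨w, hw, rfl⟩, h2⟩ := exists_lt_of_lt_csSup (hne.image _) (show h a - η < h a by linarith)
    exact ⟨w, hw, h2⟩
  obtain ⟨N, hN⟩ := exists_nat_gt (2 * Real.pi + 2 * Real.pi * (16 * (R + 1)) / δ)
  have hpi := Real.pi_pos
  have hq : 0 < 2 * Real.pi * (16 * (R + 1)) / δ := by positivity
  have hN0 : (0 : ℝ) < N := by linarith
  set α : ℝ := 2 * Real.pi / N with hα
  have hα0 : 0 < α := by positivity
  have hα1 : α ≤ 1 := by rw [hα, div_le_one hN0]; linarith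
  have hα2 : α * (16 * (R + 1)) ≤ δ := by
    rw [hα, div_mul_eq_mul_div, div_le_iff₀ hN0]
    have : 2 * Real.pi * (16 * (R + 1)) / δ < N := by linarith
    rw [div_lt_iff₀ hδ] at this; linarith
  set c := Real.cos α with hc
  set s := Real.sin α with hs
  have hs0 : 0 < s := Real.sin_pos_of_pos_of_lt_pi hα0 (by linarith [Real.pi_gt_three])
  have hsα : s ≤ α := Real.sin_le hα0.le
  have hc0 : 1 / 2 ≤ c := by have := Real.one_sub_sq_div_two_le_cos (x := α); nlinarith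
  have hcs : s ^ 2 + c ^ 2 = 1 := Real.sin_sq_add_cos_sq α
  have hc1 : c < 1 := by nlinarith
  have hcs1 : 1 ≤ c + s := by nlinarith
  have hcs' : (s : ℂ) ^ 2 + (c : ℂ) ^ 2 = 1 := by exact_mod_cast hcs
  have hs' : (s : ℂ) ≠ 0 := by exact_mod_cast hs0.ne'
  let a : ℕ → ℂ := fun k => exp (k * α * I)
  have ha : ∀ k, ‖a k‖ = 1 := fun k => by
    simp only [a]; rw [← ofReal_natCast, ← ofReal_mul, norm_exp_ofReal_mul_I]
  have haa : ∀ k, (starRingEnd ℂ) (a k) * a k = 1 := fun k => by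
    rw [← normSq_eq_conj_mul_self, normSq_eq_norm_sq, ha]; simp
  have hsucc : ∀ k, a (k + 1) = a k * (c + s * I) := fun k => by
    simp only [a, hc, hs]; push_cast
    rw [← exp_mul_I, ← exp_add]; congr 1; ring
  have hper : ∀ k, a (N + k) = a k := fun k => by
    simp only [a, hα]; push_cast
    have : (N : ℂ) ≠ 0 := by exact_mod_cast hN0.ne'
    rw [show ((N : ℂ) + k) * (2 * Real.pi / N) * I = k * (2 * Real.pi / N) * I + 2 * Real.pi * I by
      field_simp; ring, exp_add, exp_two_pi_mul_I, mul_one]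
  have hre : ∀ k (z : ℂ), ((starRingEnd ℂ) (a (k + 1)) * z).re =
      c * ((starRingEnd ℂ) (a k) * z).re + s * ((starRingEnd ℂ) (a k) * z).im := by
    intro k z
    rw [hsucc, map_mul]
    simp; ring
  set ε := δ / 8 with hε
  have hε0 : 0 < ε := by positivity
  let H : ℕ → ℝ := fun k => h (a k) + ε
  let v : ℕ → ℂ := fun k => a k * (H k + ((H (k + 1) - c * H k) / s : ℝ) * I)
  have hv' : ∀ k, v k = a (k + 1) * (H (k + 1) + ((c * H (k + 1) - H k) / s : ℝ) * I) := by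
    intro k
    simp only [v]
    rw [hsucc, mul_assoc]
    congr 1
    push_cast
    field_simp
    linear_combination (-(H (k + 1) : ℂ) * I) * hcs' - ((s : ℂ) * (c * H (k + 1) - H k)) * I_mul_I
  have s1 : ∀ k w, ((starRingEnd ℂ) (a k) * (v k - w)).re = H k - ((starRingEnd ℂ) (a k) * w).re := by
    intro k w
    simp only [v]
    rw [mul_sub, ← mul_assoc, haa, one_mul, sub_re, add_re, re_ofReal_mul]; simp
  have s2 : ∀ k w, ((starRingEnd ℂ) (a (k + 1)) * (v k - w)).re =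
      H (k + 1) - ((starRingEnd ℂ) (a (k + 1)) * w).re := by
    intro k w
    rw [hv', mul_sub, ← mul_assoc, haa, one_mul, sub_re, add_re, re_ofReal_mul]; simp
  refine ⟨⟨N, v, fun k => a (k + 1), fun k => (H (k + 2) + H k - 2 * c * H (k + 1)) / s, ε,
    by exact_mod_cast hN0, hε0, ?_, fun k => ha _, fun k => ?_, fun k => ?_, fun k w hw => ?_,
    fun k => ?_⟩⟩
  · have e0 : a N = a 0 := hper 0
    have e1 : a (N + 1) = a (0 + 1) := hper 1
    simp only [v, H, e0, e1]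
  · apply div_pos _ hs0
    have : h (a (k + 1)) ≤ (h (a (k + 2)) + h (a k)) / (2 * c) := by
      apply csSup_le (hne.image _)
      rintro _ ⟨w, hw, rfl⟩
      rw [le_div_iff₀ (by linarith)]
      have e : (starRingEnd ℂ) (a (k + 2)) * w + (starRingEnd ℂ) (a k) * w =
          (2 * c : ℝ) * ((starRingEnd ℂ) (a (k + 1)) * w) := by
        rw [hsucc (k + 1), hsucc k]
        simp only [map_mul, map_add, conj_ofReal, conj_I]
        push_cast
        linear_combination ((starRingEnd ℂ) (a k) * w) * ((s : ℂ) ^ 2 * I_mul_I - hcs')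
      have e2 := congrArg re e
      rw [add_re, re_ofReal_mul] at e2
      have := le_h (a (k + 2)) w hw
      have := le_h (a k) w hw
      simp only
      linarith
    rw [le_div_iff₀ (by linarith)] at this
    simp only [H]
    nlinarith
  · rw [hv' k]
    simp only [v]
    push_cast
    field_simp
    ring
  · rw [s2]; have := le_h (a (k + 1)) w hw; simp only [H]; linarith
  · obtain ⟨w1, h1, b1⟩ := near_h (a k) (ε * (1 - c)) (mul_pos hε0 (by linarith))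
    obtain ⟨w2, h2, b2⟩ := near_h (a (k + 1)) (ε * (1 - c)) (mul_pos hε0 (by linarith))
    obtain ⟨w, hw, hw2⟩ := near_aux hW hR hε0 hc0 hc1.le hs0 hcs1 (ha k) h1 h2 (v := v k)
      (fun w hw => by rw [s1]; have := le_h (a k) w hw; simp only [H]; linarith)
      (fun w hw => by rw [← hre, s2]; have := le_h (a (k + 1)) w hw; simp only [H]; linarith)
      (by rw [s1]; simp only [H]; linarith) (by rw [← hre, s2]; simp only [H]; linarith)
    refine ⟨w, hw, hw2.trans ?_⟩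
    nlinarith [mul_le_mul_of_nonneg_left hsα hR0]

end Vale.Agent.P123
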