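import Vale.Agent.P123.Defs

open Filter Topology

namespace Vale.Agent.P123

variable {H : Type*} [NormedAddCommGroup H] [InnerProductSpace ℂ H] [CompleteSpace H]

lemma rec_bound {m : ℕ → ℝ} {κ D B : ℝ} (hκ : 2 ≤ κ) (hB : ∀ n, -B ≤ m n)
    (h : ∀ n, m (n + 1) ≤ κ * m n + D) : -D / (κ - 1) ≤ m 1 := by
  by_contra hc
  rw [not_le] at hc
  have hl : 0 < κ - 1 := by linarith
  set z := m 1 + D / (κ - 1) with hz
  have hz0 : z < 0 := by rw [neg_div] at hc; linarith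
  have hD : D + D / (κ - 1) = κ * (D / (κ - 1)) := by field_simp; ring
  have key : ∀ n : ℕ, m (n + 1) + D / (κ - 1) ≤ (n + 1) * z := by
    intro n
    induction n with
    | zero => simp [hz]
    | succ n ih =>
      have h1 := h (n + 1)
      have h2 : κ * (m (n + 1) + D / (κ - 1)) ≤ κ * ((n + 1) * z) :=
        mul_le_mul_of_nonneg_left ih (by linarith)
      have h3 : (0 : ℝ) ≤ n := Nat.cast_nonneg n
      have h4 : 0 ≤ (κ - 2) * ((n + 1) * -z) := mul_nonneg (by linarith) (mul_nonneg (by linarith) (by linarith))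
      push_cast
      nlinarith
  obtain ⟨n, hn⟩ := exists_nat_gt ((B - D / (κ - 1)) / -z)
  rw [div_lt_iff₀ (by linarith)] at hn
  have := key n
  have := hB (n + 1)
  nlinarith

set_option maxHeartbeats 1000000 in
lemma key_lemma (T : H →L[ℂ] H) (E : ℕ → H →L[ℂ] H) (C : ℝ) (hE : ∀ n, ‖E n‖ ≤ C)
    (hT : ∀ n, ‖T ^ n‖ ≤ C) (hc : ∀ n, E n * T = T * E n)
    (h1 : ∀ (x : H) (κ : ℝ), 0 ≤ ‖T x‖ ^ 2 + κ ^ 2 * ‖x‖ ^ 2 -
      κ * ((inner ℂ x (E 1 (T x))).re + ‖T x‖ ^ 2))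
    (h2 : ∀ (x : H) (κ l : ℝ) (n : ℕ), 0 ≤ l ^ 2 * ‖(T ^ (n + 1)) x‖ ^ 2 +
      (‖T x‖ ^ 2 + κ ^ 2 * ‖x‖ ^ 2 - κ * ((inner ℂ x (E 1 (T x))).re + ‖T x‖ ^ 2)) +
      l * (((inner ℂ (T x) (E n ((T ^ (n + 1)) x))).re + ‖(T ^ (n + 1)) x‖ ^ 2) -
        κ * ((inner ℂ x (E (n + 1) ((T ^ (n + 1)) x))).re + ‖(T ^ (n + 1)) x‖ ^ 2))) :
    ‖T‖ ≤ 2 := by
  by_contra hκ
  rw [not_le] at hκ
  set κ := ‖T‖ with hκd
  have hC : 0 ≤ C := le_trans (norm_nonneg _) (hE 0)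
  have hl : 1 < κ - 1 := by linarith
  obtain ⟨r, hr1, hr2, hr3⟩ : ∃ r, 0 < r ∧ r < κ ∧
      κ ^ 2 - (κ - 1) * r ^ 2 + κ * Real.sqrt (κ ^ 2 - r ^ 2) * C ^ 2 / (κ - 1) < 0 := by
    have hcont : ContinuousAt (fun r : ℝ =>
        κ ^ 2 - (κ - 1) * r ^ 2 + κ * Real.sqrt (κ ^ 2 - r ^ 2) * C ^ 2 / (κ - 1)) κ := by fun_prop
    have hlt := hcont.eventually_lt continuousAt_const (g := fun _ => 0) (by
      simp only [sub_self, Real.sqrt_zero, mul_zero, zero_mul, zero_div, add_zero]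
      nlinarith [mul_pos (show 0 < κ ^ 2 by positivity) (show 0 < κ - 2 by linarith)])
    have hpos : ∀ᶠ r in 𝓝 κ, 0 < r := lt_mem_nhds (by linarith)
    obtain ⟨r, ⟨a, b⟩, c⟩ := (((hlt.and hpos).filter_mono nhdsWithin_le_nhds).and
      (self_mem_nhdsWithin (s := Set.Iio κ))).exists
    exact ⟨r, b, c, a⟩
  obtain ⟨x, hx1, hx2⟩ := T.exists_lt_apply_of_lt_opNorm hr2
  set η := κ * Real.sqrt (κ ^ 2 - r ^ 2) with hη
  let ρ := ContinuousLinearMap.adjoint T (T x) - ((κ ^ 2 : ℝ) : ℂ) • x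
  have hρ : ‖ρ‖ ≤ η := by
    have a1 : ‖ContinuousLinearMap.adjoint T (T x)‖ ≤ κ * ‖T x‖ := by
      have := (ContinuousLinearMap.adjoint T).le_opNorm (T x)
      rwa [LinearIsometryEquiv.norm_map] at this
    have a2 : ‖ρ‖ ^ 2 = ‖ContinuousLinearMap.adjoint T (T x)‖ ^ 2 - 2 * (κ ^ 2 * ‖T x‖ ^ 2) +
        (κ ^ 2) ^ 2 * ‖x‖ ^ 2 := by
      simp only [ρ]
      rw [@norm_sub_sq ℂ, inner_smul_right, ContinuousLinearMap.adjoint_inner_left,
        inner_self_eq_norm_sq_to_K, norm_smul, Complex.norm_real, Real.norm_eq_abs,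
        abs_of_nonneg (sq_nonneg κ), mul_pow]
      congr 2
      simp only [Complex.coe_algebraMap, RCLike.re_to_complex]
      rw [← Complex.ofReal_pow, ← Complex.ofReal_mul, Complex.ofReal_re]
    have a3 : η ^ 2 = κ ^ 2 * (κ ^ 2 - r ^ 2) := by
      rw [hη, mul_pow, Real.sq_sqrt (by nlinarith)]
    have a4 : ‖ContinuousLinearMap.adjoint T (T x)‖ ^ 2 ≤ (κ * ‖T x‖) ^ 2 := by gcongr
    have a5 : r ^ 2 ≤ ‖T x‖ ^ 2 := by gcongr
    have a6 : ‖x‖ ^ 2 ≤ 1 := by nlinarith [norm_nonneg x]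
    apply (sq_le_sq₀ (norm_nonneg _) (by positivity)).1
    rw [a2, a3]
    have a7 := mul_le_mul_of_nonneg_left a5 (sq_nonneg κ)
    have a8 := mul_le_mul_of_nonneg_left a6 (sq_nonneg (κ ^ 2))
    nlinarith
  let m : ℕ → ℝ := fun n => (inner ℂ x (E n ((T ^ n) x))).re
  have hv : ∀ n, ‖E n ((T ^ n) x)‖ ≤ C ^ 2 := by
    intro n
    calc _ ≤ ‖E n‖ * (‖T ^ n‖ * ‖x‖) := (ContinuousLinearMap.le_opNorm _ _).trans
          (mul_le_mul_of_nonneg_left (ContinuousLinearMap.le_opNorm _ _) (norm_nonneg _))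
      _ ≤ C * (C * 1) := by gcongr; exacts [hE n, hT n]
      _ = C ^ 2 := by ring
  have hm : ∀ n, -C ^ 2 ≤ m n := by
    intro n
    have a1 := (abs_le.1 (Complex.abs_re_le_norm (inner ℂ x (E n ((T ^ n) x))))).1
    have a2 := norm_inner_le_norm (𝕜 := ℂ) x (E n ((T ^ n) x))
    have a3 := hv n
    have a4 := norm_nonneg (E n ((T ^ n) x))
    simp only [m]
    nlinarith [norm_nonneg x]
  set Δ := ‖T x‖ ^ 2 + κ ^ 2 * ‖x‖ ^ 2 - κ * ((inner ℂ x (E 1 (T x))).re + ‖T x‖ ^ 2) with hΔ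
  have hΔ0 : 0 ≤ Δ := h1 x κ
  have hrec : ∀ n, m (n + 1) ≤ κ * m n + (Δ / (κ - 1) + η * C ^ 2) / κ := by
    intro n
    have a1 := h2 x κ (κ - 1) n
    rw [← hΔ] at a1
    have a2 : (inner ℂ (T x) (E n ((T ^ (n + 1)) x))).re ≤ κ ^ 2 * m n + η * C ^ 2 := by
      have e1 : E n ((T ^ (n + 1)) x) = T (E n ((T ^ n) x)) := by
        rw [pow_succ', mul_apply_eq_comp, ← mul_apply_eq_comp (E n), hc,
          mul_apply_eq_comp]
      have e2 : ContinuousLinearMap.adjoint T (T x) = ρ + ((κ ^ 2 : ℝ) : ℂ) • x := by simp [ρ]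
      rw [e1, ← ContinuousLinearMap.adjoint_inner_left, e2, inner_add_left, inner_smul_left,
        Complex.add_re, Complex.conj_ofReal, Complex.re_ofReal_mul]
      have b1 := Complex.re_le_norm (inner ℂ ρ (E n ((T ^ n) x)))
      have b2 := norm_inner_le_norm (𝕜 := ℂ) ρ (E n ((T ^ n) x))
      have b3 : ‖ρ‖ * ‖E n ((T ^ n) x)‖ ≤ η * C ^ 2 :=
        mul_le_mul hρ (hv n) (norm_nonneg _) (le_trans (norm_nonneg _) hρ)
      simp only [m]
      linarith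
    have a3 : 0 ≤ Δ + (κ - 1) * (κ ^ 2 * m n + η * C ^ 2 - κ * m (n + 1)) := by
      have := mul_le_mul_of_nonneg_left a2 (show 0 ≤ κ - 1 by linarith)
      simp only [m] at this ⊢
      nlinarith
    rw [← sub_le_iff_le_add', le_div_iff₀ (by linarith), ← sub_le_iff_le_add,
      le_div_iff₀ (by linarith)]
    nlinarith
  have hm1 := rec_bound hκ.le hm hrec
  have e1 : m 1 = (inner ℂ x (E 1 (T x))).re := by simp [m]
  rw [e1, div_le_iff₀ (by linarith), neg_le, le_div_iff₀ (by linarith)] at hm1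
  have a5 : r ^ 2 ≤ ‖T x‖ ^ 2 := by gcongr
  have a6 : ‖x‖ ^ 2 ≤ 1 := by nlinarith [norm_nonneg x]
  have a7 : Δ / (κ - 1) ≤ Δ := div_le_self hΔ0 hl.le
  have a8 : (κ - 1) * Δ ≤ (κ - 1) * (κ ^ 2 - (κ - 1) * r ^ 2) + Δ + η * C ^ 2 := by
    have b1 := mul_le_mul_of_nonneg_left a5 (sq_nonneg (κ - 1))
    have b2 := mul_le_mul_of_nonneg_left a6 (show 0 ≤ (κ - 1) * κ ^ 2 by positivity)
    have b3 : (κ - 1) * Δ = (κ - 1) * (‖T x‖ ^ 2 + κ ^ 2 * ‖x‖ ^ 2 -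
      κ * ((inner ℂ x (E 1 (T x))).re + ‖T x‖ ^ 2)) := by rw [hΔ]
    nlinarith
  have a9 : (κ - 1) * (κ ^ 2 - (κ - 1) * r ^ 2) + η * C ^ 2 < 0 := by
    have := mul_neg_of_pos_of_neg (show 0 < κ - 1 by linarith) hr3
    rw [mul_add, mul_div_cancel₀ _ (by linarith)] at this
    exact this
  nlinarith

omit [CompleteSpace H] in
lemma convex_numRange (A : H →L[ℂ] H) : Convex ℝ (numRange A) := by
  rintro _ ⟨x, hx, rfl⟩ _ ⟨y, hy, rfl⟩ a b ha hb hab
  set p := inner ℂ x (A x) with hp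
  set q := inner ℂ y (A y) with hq
  by_cases hpq : p = q
  · refine ⟨x, hx, ?_⟩
    rw [← hpq, ← add_smul, hab, one_smul]
  have hd : q - p ≠ 0 := sub_ne_zero.2 (Ne.symm hpq)
  let B : H →L[ℂ] H := (q - p)⁻¹ • (A - p • 1)
  have hB : ∀ u v, inner ℂ u (B v) = (q - p)⁻¹ * (inner ℂ u (A v) - p * inner ℂ u v) := by
    intro u v
    simp [B]
  have hxx : inner ℂ x x = (1 : ℂ) := by rw [inner_self_eq_norm_sq_to_K, hx]; simp
  have hyy : inner ℂ y y = (1 : ℂ) := by rw [inner_self_eq_norm_sq_to_K, hy]; simp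
  have Bx : inner ℂ x (B x) = 0 := by rw [hB, hxx]; ring
  have By : inner ℂ y (B y) = 1 := by rw [hB, hyy, ← hq]; field_simp
  obtain ⟨c, hc1, hc2⟩ : ∃ c : ℂ, ‖c‖ = 1 ∧
      (c * inner ℂ x (B y) + (starRingEnd ℂ) c * inner ℂ y (B x)).im = 0 := by
    set d := inner ℂ x (B y) - (starRingEnd ℂ) (inner ℂ y (B x)) with hdd
    have him : ∀ c : ℂ, (c * inner ℂ x (B y) + (starRingEnd ℂ) c * inner ℂ y (B x)).im = (c * d).im := by
      intro c
      rw [hdd]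
      generalize inner ℂ y (B x) = u
      simp; ring
    by_cases h0 : d = 0
    · exact ⟨1, by simp, by rw [him, h0]; simp⟩
    · refine ⟨(starRingEnd ℂ) d / ‖d‖, by simp [h0], ?_⟩
      rw [him, div_mul_eq_mul_div, ← Complex.normSq_eq_conj_mul_self, ← Complex.ofReal_div,
        Complex.ofReal_im]
  let z : ℝ → H := fun t => ((1 - t : ℝ) : ℂ) • x + ((t : ℂ) * c) • y
  have hcc : (starRingEnd ℂ) c * c = 1 := by
    rw [← Complex.normSq_eq_conj_mul_self, Complex.normSq_eq_norm_sq, hc1]; simp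
  have hz : ∀ t : ℝ, inner ℂ (z t) (B (z t)) = ((t ^ 2 + t * (1 - t) *
      (c * inner ℂ x (B y) + (starRingEnd ℂ) c * inner ℂ y (B x)).re : ℝ) : ℂ) := by
    intro t
    have e := Complex.re_add_im (c * inner ℂ x (B y) + (starRingEnd ℂ) c * inner ℂ y (B x))
    rw [hc2] at e
    push_cast
    rw [Complex.ofReal_zero, zero_mul, add_zero] at e
    rw [e]
    simp only [z, map_add, map_smul, inner_add_left, inner_add_right, inner_smul_left,
      inner_smul_right, Bx, By, map_mul, Complex.conj_ofReal]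
    push_cast
    linear_combination (t : ℂ) ^ 2 * hcc
  have hz0 : ∀ t ∈ Set.Icc (0 : ℝ) 1, z t ≠ 0 := by
    intro t ht h0
    by_cases ht0 : t = 0
    · simp [z, ht0] at h0; simp [h0] at hx
    · have h3 : ((t : ℂ) * c) • y = -(((1 - t : ℝ) : ℂ) • x) := eq_neg_of_add_eq_zero_right h0
      have h4 : inner ℂ (((t : ℂ) * c) • y) (B (((t : ℂ) * c) • y)) = (t : ℂ) ^ 2 := by
        simp only [map_smul, inner_smul_left, inner_smul_right, By, map_mul, Complex.conj_ofReal]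
        linear_combination (t : ℂ) ^ 2 * hcc
      rw [h3] at h4
      simp only [map_neg, map_smul, inner_neg_left, inner_neg_right, inner_smul_left,
        inner_smul_right, Bx] at h4
      simp at h4
      exact ht0 (by exact_mod_cast pow_eq_zero_iff (two_ne_zero) |>.1 h4.symm)
  let g : ℝ → ℝ := fun t => (t ^ 2 + t * (1 - t) *
      (c * inner ℂ x (B y) + (starRingEnd ℂ) c * inner ℂ y (B x)).re) / ‖z t‖ ^ 2
  have hg : ContinuousOn g (Set.Icc 0 1) := by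
    apply ContinuousOn.div (by fun_prop) (by simp only [z]; fun_prop)
    intro t ht
    exact pow_ne_zero 2 (norm_ne_zero_iff.2 (hz0 t ht))
  have g0 : g 0 = 0 := by simp [g]
  have g1 : g 1 = 1 := by simp [g, z, norm_smul, hc1, hy]
  obtain ⟨t, ht, hgt⟩ := intermediate_value_Icc zero_le_one hg (show b ∈ Set.Icc (g 0) (g 1) by
    rw [g0, g1]; exact ⟨hb, by linarith⟩)
  have hn : ‖z t‖ ≠ 0 := norm_ne_zero_iff.2 (hz0 t ht)
  refine ⟨((‖z t‖⁻¹ : ℝ) : ℂ) • z t, by simp [norm_smul, hn], ?_⟩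
  have e1 := hB (z t) (z t)
  rw [hz t, inner_self_eq_norm_sq_to_K] at e1
  simp only [g] at hgt
  rw [div_eq_iff (pow_ne_zero 2 hn)] at hgt
  rw [hgt] at e1
  simp only [map_smul, inner_smul_left, inner_smul_right, Complex.conj_ofReal]
  have hn' : ((‖z t‖ : ℝ) : ℂ) ≠ 0 := by exact_mod_cast hn
  have e2 : inner ℂ (z t) (A (z t)) = (q - p) * (b * (‖z t‖ : ℂ) ^ 2) + p * (‖z t‖ : ℂ) ^ 2 := by
    push_cast at e1
    rw [e1]
    simp only [Complex.coe_algebraMap]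
    field_simp
    ring
  have ha' : a = 1 - b := by linarith
  rw [e2, ha']
  simp only [Complex.real_smul]
  push_cast
  field_simp
  ring

end Vale.Agent.P123
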