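import Vale.Agent.P123.Key
import Vale.Agent.P123.Geo

namespace Vale.Agent.P123

open Complex Finset

set_option linter.unusedSectionVars false

section Lam
variable {E F : Type*} [NormedAddCommGroup E] [NormedSpace ℝ E] [CompleteSpace E]
  [NormedAddCommGroup F] [NormedSpace ℝ F] [CompleteSpace F]

noncomputable def Lam (N : ℕ) (f : ℕ → ℝ → E) : E := ∑ k ∈ range N, ∫ s in (0 : ℝ)..1, f k s

lemma Lam_add {N : ℕ} {f g : ℕ → ℝ → E} (hf : ∀ k, Continuous (f k)) (hg : ∀ k, Continuous (g k)) :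
    Lam N (fun k s => f k s + g k s) = Lam N f + Lam N g := by
  unfold Lam
  rw [← sum_add_distrib]
  exact sum_congr rfl fun k _ =>
    intervalIntegral.integral_add ((hf k).intervalIntegrable _ _) ((hg k).intervalIntegrable _ _)

lemma Lam_clm {N : ℕ} {f : ℕ → ℝ → E} (hf : ∀ k, Continuous (f k)) (L : E →L[ℝ] F) :
    Lam N (fun k s => L (f k s)) = L (Lam N f) := by
  unfold Lam
  rw [map_sum]
  exact sum_congr rfl fun k _ => L.intervalIntegral_comp_comm ((hf k).intervalIntegrable _ _)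

lemma Lam_prim {N : ℕ} {f G : ℕ → ℝ → E} (hf : ∀ k, Continuous (f k))
    (hG : ∀ k s, HasDerivAt (G k) (f k s) s) (g : ℕ → E) (h0 : ∀ k, G k 0 = g k)
    (h1 : ∀ k, G k 1 = g (k + 1)) (hN : g N = g 0) : Lam N f = 0 := by
  unfold Lam
  rw [sum_congr rfl fun k _ => intervalIntegral.integral_eq_sub_of_hasDerivAt (fun s _ => hG k s)
    ((hf k).intervalIntegrable _ _)]
  simp only [h0, h1]
  rw [sum_range_sub, hN, sub_self]

lemma Lam_norm {N : ℕ} {f : ℕ → ℝ → E} {c : ℕ → ℝ} (h : ∀ k, ∀ s ∈ Set.Icc (0 : ℝ) 1, ‖f k s‖ ≤ c k) :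
    ‖Lam N f‖ ≤ ∑ k ∈ range N, c k := by
  refine (norm_sum_le _ _).trans (sum_le_sum fun k _ => ?_)
  have := intervalIntegral.norm_integral_le_of_norm_le_const (a := 0) (b := 1) (C := c k) (f := f k)
    fun s hs => h k s (by rw [Set.uIoc_of_le zero_le_one] at hs; exact ⟨hs.1.le, hs.2⟩)
  simpa using this

lemma Lam_nonneg {N : ℕ} {f : ℕ → ℝ → ℝ} (h : ∀ k, ∀ s ∈ Set.Icc (0 : ℝ) 1, 0 ≤ f k s) :
    0 ≤ Lam N f :=
  sum_nonneg fun k _ => intervalIntegral.integral_nonneg zero_le_one (h k)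

lemma Lam_mul {N : ℕ} (c : ℝ) (f : ℕ → ℝ → ℝ) : Lam N (fun k s => c * f k s) = c * Lam N f := by
  unfold Lam
  simp only [intervalIntegral.integral_const_mul, mul_sum]

lemma const_of_sq {G : ℝ → E} {C : ℝ}
    (h : ∀ t ∈ Set.Icc (0 : ℝ) 1, ∀ t' ∈ Set.Icc (0 : ℝ) 1, ‖G t' - G t‖ ≤ C * (t' - t) ^ 2) :
    G 1 = G 0 := by
  rw [← sub_eq_zero, ← norm_le_zero_iff]
  apply le_of_forall_pos_le_add
  intro η hη
  obtain ⟨n, hn⟩ := exists_nat_gt (|C| / η)
  have hn0 : (0 : ℝ) < n := lt_of_le_of_lt (by positivity) hn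
  have e : G 1 - G 0 = ∑ i ∈ range n, (G (((i + 1 : ℕ) : ℝ) / n) - G ((i : ℝ) / n)) := by
    rw [sum_range_sub (fun i : ℕ => G ((i : ℝ) / n)), div_self hn0.ne']; simp
  rw [e, zero_add]
  refine (norm_sum_le _ _).trans ?_
  have : ∀ i ∈ range n, ‖G (((i + 1 : ℕ) : ℝ) / n) - G ((i : ℝ) / n)‖ ≤ |C| / n ^ 2 := by
    intro i hi
    have hi' : ((i + 1 : ℕ) : ℝ) ≤ n := by exact_mod_cast mem_range.1 hi
    refine (h _ ⟨by positivity, ?_⟩ _ ⟨by positivity, ?_⟩).trans ?_
    · rw [div_le_one hn0]; push_cast at hi'; linarith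
    · rw [div_le_one hn0]; exact hi'
    · rw [← sub_div]; push_cast
      rw [add_sub_cancel_left, div_pow, one_pow, mul_one_div]
      gcongr; exact le_abs_self C
  refine (sum_le_sum this).trans ?_
  rw [sum_const, card_range, nsmul_eq_mul]
  rw [div_lt_iff₀ hη] at hn
  rw [mul_div_assoc', div_le_iff₀ (by positivity)]
  nlinarith

end Lam

variable {H : Type*} [NormedAddCommGroup H] [InnerProductSpace ℂ H] [CompleteSpace H]
variable {W : Set ℂ} {δ : ℝ}

noncomputable def Poly.d (P : Poly W δ) (k : ℕ) : ℂ := I * P.a k * P.l k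
noncomputable def Poly.σ (P : Poly W δ) (k : ℕ) (s : ℝ) : ℂ := P.v k + s * P.d k

lemma Poly.σ0 (P : Poly W δ) (k : ℕ) : P.σ k 0 = P.v k := by simp [Poly.σ]
lemma Poly.σ1 (P : Poly W δ) (k : ℕ) : P.σ k 1 = P.v (k + 1) := by simp [Poly.σ, Poly.d, P.edge]
lemma Poly.dσ (P : Poly W δ) (k : ℕ) (s : ℝ) : HasDerivAt (P.σ k) (P.d k) s := by
  have := ((hasDerivAt_id s).ofReal_comp.mul_const (P.d k)).const_add (P.v k)
  simp only [id, ofReal_one, one_mul] at this
  exact this
lemma Poly.cσ (P : Poly W δ) (k : ℕ) : Continuous (P.σ k) :=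
  continuous_iff_continuousAt.2 fun s => (P.dσ k s).continuousAt
lemma Poly.aa (P : Poly W δ) (k : ℕ) : (starRingEnd ℂ) (P.a k) * P.a k = 1 := by
  rw [← normSq_eq_conj_mul_self, normSq_eq_norm_sq, P.ha]; simp
lemma Poly.sepσ (P : Poly W δ) (k : ℕ) (s : ℝ) {w : ℂ} (hw : w ∈ W) :
    P.ε ≤ ((starRingEnd ℂ) (P.a k) * (P.σ k s - w)).re := by
  have e : (starRingEnd ℂ) (P.a k) * (P.σ k s - w) =
      (starRingEnd ℂ) (P.a k) * (P.v k - w) + (s * P.l k : ℝ) * I := by
    simp only [Poly.σ, Poly.d]; push_cast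
    linear_combination (s * I * P.l k : ℂ) * P.aa k
  rw [e, add_re, re_ofReal_mul, I_re, mul_zero, add_zero]
  exact P.sep k w hw
lemma Poly.norm_d (P : Poly W δ) (k : ℕ) : ‖P.d k‖ = P.l k := by
  simp [Poly.d, P.ha, abs_of_pos (P.hl k)]
lemma Poly.nearσ (P : Poly W δ) (hW : Convex ℝ W) (k : ℕ) {s : ℝ} (hs : s ∈ Set.Icc (0 : ℝ) 1) :
    ∃ w ∈ W, ‖P.σ k s - w‖ ≤ δ := by
  obtain ⟨w1, h1, b1⟩ := P.near k
  obtain ⟨w2, h2, b2⟩ := P.near (k + 1)
  refine ⟨(1 - s) • w1 + s • w2, hW h1 h2 (by linarith [hs.2]) hs.1 (by ring), ?_⟩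
  have e : P.σ k s - ((1 - s) • w1 + s • w2) = (1 - s) • (P.v k - w1) + s • (P.v (k + 1) - w2) := by
    simp only [Poly.σ, Poly.d, P.edge, real_smul]; push_cast; ring
  rw [e]
  refine (norm_add_le _ _).trans ?_
  rw [norm_smul, norm_smul, Real.norm_eq_abs, Real.norm_eq_abs, abs_of_nonneg hs.1,
    abs_of_nonneg (by linarith [hs.2])]
  nlinarith [mul_le_mul_of_nonneg_left b1 (show 0 ≤ 1 - s by linarith [hs.2]),
    mul_le_mul_of_nonneg_left b2 hs.1]

section Res
variable (P : Poly W δ) {B : H →L[ℂ] H} (hB : numRange B ⊆ W)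
include hB

lemma coerc (k : ℕ) (s : ℝ) (u : H) : P.ε * ‖u‖ ^ 2 ≤
    ((starRingEnd ℂ) (P.a k) * inner ℂ u ((algebraMap ℂ (H →L[ℂ] H) (P.σ k s) - B) u)).re := by
  by_cases hu : u = 0
  · simp [hu]
  have hn : ‖u‖ ≠ 0 := norm_ne_zero_iff.2 hu
  have hn' : ((‖u‖ : ℝ) : ℂ) ≠ 0 := by exact_mod_cast hn
  have := P.sepσ k s (hB ⟨((‖u‖⁻¹ : ℝ) : ℂ) • u, by simp [norm_smul, hn], rfl⟩)
  have e : (starRingEnd ℂ) (P.a k) * inner ℂ u ((algebraMap ℂ (H →L[ℂ] H) (P.σ k s) - B) u) =
      ((‖u‖ ^ 2 : ℝ) : ℂ) * ((starRingEnd ℂ) (P.a k) * (P.σ k s -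
        inner ℂ (((‖u‖⁻¹ : ℝ) : ℂ) • u) (B (((‖u‖⁻¹ : ℝ) : ℂ) • u)))) := by
    simp only [map_smul, inner_smul_left, inner_smul_right, conj_ofReal, sub_apply,
      ContinuousLinearMap.algebraMap_apply, inner_sub_right, inner_self_eq_norm_sq_to_K,
      coe_algebraMap]
    push_cast
    field_simp
  rw [e, re_ofReal_mul, mul_comm]
  exact mul_le_mul_of_nonneg_left this (by positivity)

lemma unit (k : ℕ) (s : ℝ) : IsUnit (algebraMap ℂ (H →L[ℂ] H) (P.σ k s) - B) := by
  apply ContinuousLinearMap.isUnit_of_forall_le_norm_inner_map _ (c := ⟨P.ε, P.hε.le⟩) P.hε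
  intro x
  have := (coerc P hB k s x).trans (re_le_norm _)
  rw [norm_mul, RCLike.norm_conj, P.ha, one_mul, norm_inner_symm, mul_comm] at this
  exact this

lemma res_mul (k : ℕ) (s : ℝ) :
    (algebraMap ℂ (H →L[ℂ] H) (P.σ k s) - B) * resolvent B (P.σ k s) = 1 :=
  Ring.mul_inverse_cancel _ (unit P hB k s)

lemma mul_res (k : ℕ) (s : ℝ) :
    resolvent B (P.σ k s) * (algebraMap ℂ (H →L[ℂ] H) (P.σ k s) - B) = 1 :=
  Ring.inverse_mul_cancel _ (unit P hB k s)

lemma res_apply (k : ℕ) (s : ℝ) (y : H) :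
    (algebraMap ℂ (H →L[ℂ] H) (P.σ k s) - B) (resolvent B (P.σ k s) y) = y := by
  rw [← mul_apply_eq_comp, res_mul P hB]; rfl

lemma res_norm (k : ℕ) (s : ℝ) : ‖resolvent B (P.σ k s)‖ ≤ P.ε⁻¹ := by
  have hε := P.hε
  apply ContinuousLinearMap.opNorm_le_bound _ (by positivity)
  intro y
  have := (coerc P hB k s (resolvent B (P.σ k s) y)).trans (re_le_norm _)
  rw [norm_mul, RCLike.norm_conj, P.ha, one_mul, res_apply P hB] at this
  have h2 := this.trans (norm_inner_le_norm _ _)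
  rw [← div_eq_inv_mul, le_div_iff₀ hε]
  rcases (norm_nonneg (resolvent B (P.σ k s) y)).eq_or_lt with h | h
  · rw [← h]; simp
  · nlinarith

lemma res_pos (k : ℕ) (s : ℝ) (y : H) : 0 ≤ (inner ℂ y ((P.a k • resolvent B (P.σ k s)) y)).re := by
  have := coerc P hB k s (resolvent B (P.σ k s) y)
  rw [res_apply P hB] at this
  have h0 : 0 ≤ P.ε * ‖resolvent B (P.σ k s) y‖ ^ 2 := by have := P.hε; positivity
  rw [smul_apply, inner_smul_right, ← conj_re, map_mul, inner_conj_symm]
  linarith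

lemma res_deriv (k : ℕ) (s : ℝ) : HasDerivAt (fun s => resolvent B (P.σ k s))
    (P.d k • -resolvent B (P.σ k s) ^ 2) s :=
  (spectrum.hasDerivAt_resolvent_const_left (unit P hB k s)).scomp s (P.dσ k s)

lemma res_cont (k : ℕ) : Continuous fun s => resolvent B (P.σ k s) :=
  continuous_iff_continuousAt.2 fun s => (res_deriv P hB k s).continuousAt

lemma res_comm (k : ℕ) (s : ℝ) {X : H →L[ℂ] H} (h : Commute X B) :
    Commute X (resolvent B (P.σ k s)) := by
  have h2 : Commute X (algebraMap ℂ (H →L[ℂ] H) (P.σ k s) - B) :=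
    (Algebra.commutes _ _).symm |> fun h' => Commute.sub_right h' h
  obtain ⟨u, hu⟩ := unit P hB k s
  unfold resolvent
  rw [← hu] at h2 ⊢
  rw [Ring.inverse_unit]
  exact h2.units_inv_right

lemma Lam_res_sq : Lam P.N (fun k s => P.d k • -resolvent B (P.σ k s) ^ 2) = 0 :=
  Lam_prim (fun k => by have := res_cont P hB k; fun_prop) (res_deriv P hB)
    (fun k => resolvent B (P.v k)) (fun k => by rw [P.σ0]) (fun k => by rw [P.σ1]) (by rw [P.closed])

end Res

noncomputable def lmul (X : H →L[ℂ] H) : (H →L[ℂ] H) →L[ℝ] (H →L[ℂ] H) :=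
  (ContinuousLinearMap.mul ℂ (H →L[ℂ] H) X).restrictScalars ℝ
noncomputable def rmul (X : H →L[ℂ] H) : (H →L[ℂ] H) →L[ℝ] (H →L[ℂ] H) :=
  ((ContinuousLinearMap.mul ℂ (H →L[ℂ] H)).flip X).restrictScalars ℝ
noncomputable def sone : ℂ →L[ℝ] (H →L[ℂ] H) :=
  ((ContinuousLinearMap.id ℂ ℂ).smulRight (1 : H →L[ℂ] H)).restrictScalars ℝ
noncomputable def csm (c : ℂ) : (H →L[ℂ] H) →L[ℝ] (H →L[ℂ] H) :=
  (c • ContinuousLinearMap.id ℂ (H →L[ℂ] H)).restrictScalars ℝ
noncomputable def phi (z y : H) : (H →L[ℂ] H) →L[ℝ] ℝ :=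
  reCLM.comp (((innerSL ℂ z).comp (ContinuousLinearMap.apply ℂ H y)).restrictScalars ℝ)

lemma lmul_apply (X Y : H →L[ℂ] H) : lmul X Y = X * Y := rfl
lemma rmul_apply (X Y : H →L[ℂ] H) : rmul X Y = Y * X := rfl
lemma sone_apply (c : ℂ) : (sone c : H →L[ℂ] H) = c • 1 := rfl
lemma csm_apply (c : ℂ) (Y : H →L[ℂ] H) : csm c Y = c • Y := rfl
lemma phi_apply (z y : H) (Y : H →L[ℂ] H) : phi z y Y = (inner ℂ z (Y y)).re := rfl

lemma total_mass (A : H →L[ℂ] H) {w0 : ℂ} (h0 : w0 ∈ numRange A) (P : Poly (numRange A) δ) :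
    ∃ γ : ℝ, 0 < γ ∧ Lam P.N (fun k s => P.d k • resolvent A (P.σ k s)) = (I * γ) • 1 := by
  let N0 : H →L[ℂ] H := A - w0 • 1
  let B : ℝ → H →L[ℂ] H := fun t => w0 • 1 + (t : ℂ) • N0
  have hB : ∀ t ∈ Set.Icc (0 : ℝ) 1, numRange (B t) ⊆ numRange A := by
    rintro t ht _ ⟨x, hx, rfl⟩
    have := convex_numRange A h0 ⟨x, hx, rfl⟩ (show 0 ≤ 1 - t by linarith [ht.2]) ht.1 (by ring)
    convert this using 1
    simp only [B, N0, add_apply, smul_apply, sub_apply, one_apply_eq_self, inner_add_right,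
      inner_smul_right, inner_sub_right, inner_self_eq_norm_sq_to_K, hx, real_smul]
    simp; ring
  have hε := P.hε
  have hG := const_of_sq (G := fun t => Lam P.N (fun k s => P.d k • resolvent (B t) (P.σ k s)))
    (C := ∑ k ∈ range P.N, P.l k * (P.ε⁻¹ * ‖N0‖ * P.ε⁻¹ * ‖N0‖ * P.ε⁻¹)) (by
      intro t ht t' ht'
      have c1 := res_cont P (hB t ht)
      have c2 := res_cont P (hB t' ht')
      have hcm : Commute N0 (B t) := by
        simp only [B]
        exact ((Commute.one_right _).smul_right _).add_right ((Commute.refl _).smul_right _)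
      have id1 : ∀ k s, P.d k • resolvent (B t') (P.σ k s) = P.d k • resolvent (B t) (P.σ k s) +
          (lmul (-((t' - t : ℝ) : ℂ) • N0) (P.d k • -resolvent (B t) (P.σ k s) ^ 2) +
          (((t' - t : ℝ) : ℂ) ^ 2 * P.d k) • (resolvent (B t) (P.σ k s) * N0 *
            resolvent (B t) (P.σ k s) * N0 * resolvent (B t') (P.σ k s))) := by
        intro k s
        have r1 := mul_res P (hB t ht) k s
        have r2 := res_mul P (hB t' ht') k s
        have r3 := (res_comm P (hB t ht) k s hcm).eq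
        set R := resolvent (B t) (P.σ k s)
        set R' := resolvent (B t') (P.σ k s)
        have r4 : R' = R + ((t' - t : ℝ) : ℂ) • (R * N0 * R') := by
          have e : ((t' - t : ℝ) : ℂ) • N0 = (algebraMap ℂ (H →L[ℂ] H) (P.σ k s) - B t) -
              (algebraMap ℂ (H →L[ℂ] H) (P.σ k s) - B t') := by
            simp only [B]; push_cast; module
          rw [← smul_mul_assoc, ← mul_smul_comm, e, mul_sub, r1, sub_mul, one_mul, mul_assoc, r2,
            mul_one]
          abel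
        have r5 : R' = R + ((t' - t : ℝ) : ℂ) • (N0 * R ^ 2) +
            ((t' - t : ℝ) : ℂ) ^ 2 • (R * N0 * R * N0 * R') := by
          conv_lhs => rw [r4]
          conv_lhs => rw [r4]
          rw [mul_add, sq R, ← mul_assoc N0, r3, mul_smul_comm, smul_add, smul_smul, ← sq]
          simp only [mul_assoc, add_assoc]
        rw [lmul_apply]
        conv_lhs => rw [r5]
        simp only [smul_mul_assoc, mul_smul_comm, mul_neg]
        module
      rw [show (fun k s => P.d k • resolvent (B t') (P.σ k s)) = _ from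
        funext fun k => funext fun s => id1 k s, Lam_add (fun k => by have := c1 k; fun_prop)
        (fun k => by have := c1 k; have := c2 k; fun_prop), add_sub_cancel_left,
        Lam_add (fun k => by have := c1 k; fun_prop) (fun k => by have := c1 k; have := c2 k; fun_prop),
        Lam_clm (fun k => by have := c1 k; fun_prop), Lam_res_sq P (hB t ht), map_zero, zero_add,
        sum_mul]
      apply Lam_norm
      intro k s _
      rw [norm_smul, norm_mul, P.norm_d, norm_pow, norm_real, Real.norm_eq_abs, sq_abs]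
      have n1 := res_norm P (hB t ht) k s
      have n2 := res_norm P (hB t' ht') k s
      have hl := P.hl k
      calc _ ≤ (t' - t) ^ 2 * P.l k * (P.ε⁻¹ * ‖N0‖ * P.ε⁻¹ * ‖N0‖ * P.ε⁻¹) := by
            apply mul_le_mul_of_nonneg_left _ (by positivity)
            refine (norm_mul_le _ _).trans (mul_le_mul ?_ n2 (norm_nonneg _) (by positivity))
            refine (norm_mul_le _ _).trans (mul_le_mul_of_nonneg_right ?_ (norm_nonneg _))
            refine (norm_mul_le _ _).trans (mul_le_mul ?_ n1 (norm_nonneg _) (by positivity))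
            exact (norm_mul_le _ _).trans (mul_le_mul_of_nonneg_right n1 (norm_nonneg _))
        _ = _ := by ring)
  have e1 : B 1 = A := by simp [B, N0]
  have e0 : B 0 = w0 • 1 := by simp [B]
  simp only [e1, e0] at hG
  have hne : ∀ k s, P.σ k s - w0 ≠ 0 := by
    intro k s h
    have := P.sepσ k s h0
    rw [h] at this; simp at this; linarith
  have r0 : ∀ k s, resolvent (w0 • (1 : H →L[ℂ] H)) (P.σ k s) = (P.σ k s - w0)⁻¹ • 1 := by
    intro k s
    have r1 := mul_res P (e0 ▸ hB 0 ⟨le_rfl, zero_le_one⟩) k s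
    rw [Algebra.algebraMap_eq_smul_one, ← sub_smul, mul_smul_comm, mul_one] at r1
    have := congrArg ((P.σ k s - w0)⁻¹ • ·) r1
    simp only [smul_smul, inv_mul_cancel₀ (hne k s), one_smul] at this
    exact this
  have cc : ∀ k, Continuous fun s => P.d k * (P.σ k s - w0)⁻¹ := fun k =>
    continuous_const.mul (((P.cσ k).sub continuous_const).inv₀ (hne k))
  set c := Lam P.N (fun k s => P.d k * (P.σ k s - w0)⁻¹) with hc
  have e2 : Lam P.N (fun k s => P.d k • resolvent (w0 • (1 : H →L[ℂ] H)) (P.σ k s)) = c • 1 := by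
    rw [← sone_apply c, hc, ← Lam_clm cc]
    simp only [r0, sone_apply, smul_smul]
  have hre : c.re = 0 := by
    rw [hc, ← reCLM_apply, ← Lam_clm cc]
    refine Lam_prim (G := fun k s => (log ((starRingEnd ℂ) (P.a k) * (P.σ k s - w0))).re)
      (fun k => reCLM.continuous.comp (cc k)) (fun k s => ?_) (fun k => Real.log ‖P.v k - w0‖)
      (fun k => by simp [log_re, P.σ0, P.ha]) (fun k => by simp [log_re, P.σ1, P.ha]) (by rw [P.closed])
    have h1 := (((P.dσ k s).sub_const w0).const_mul ((starRingEnd ℂ) (P.a k))).clog_real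
      (Or.inl (lt_of_lt_of_le hε (P.sepσ k s h0)))
    have h2 := reCLM.hasFDerivAt.comp_hasDerivAt s h1
    have : (starRingEnd ℂ) (P.a k) ≠ 0 := left_ne_zero_of_mul_eq_one (P.aa k)
    rw [mul_div_mul_left _ _ this, div_eq_mul_inv] at h2
    exact h2
  have him : 0 < c.im := by
    rw [hc, ← imCLM_apply, ← Lam_clm cc]
    apply sum_pos _ ⟨0, mem_range.2 P.hN⟩
    intro k _
    apply intervalIntegral.intervalIntegral_pos_of_pos
      ((imCLM.continuous.comp (cc k)).intervalIntegrable _ _) _ zero_lt_one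
    intro s
    have h1 := lt_of_lt_of_le hε (P.sepσ k s h0)
    have e : P.d k * (P.σ k s - w0)⁻¹ = (P.l k : ℂ) * (I * ((starRingEnd ℂ) (P.a k) * (P.σ k s - w0))⁻¹) := by
      have : (starRingEnd ℂ) (P.a k) ≠ 0 := left_ne_zero_of_mul_eq_one (P.aa k)
      have := hne k s
      unfold Poly.d
      field_simp
      linear_combination (P.l k : ℂ) * P.aa k
    simp only [Function.comp, imCLM_apply]
    rw [e, im_ofReal_mul, I_mul_im, inv_re]
    exact mul_pos (P.hl k) (div_pos h1 (normSq_pos.2 fun h => by rw [h] at h1; simp at h1))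
  refine ⟨c.im, him, ?_⟩
  rw [hG, e2]
  congr 1
  apply Complex.ext <;> simp [hre]

lemma pointwise (D : H →L[ℂ] H) (hD : ∀ u, 0 ≤ (inner ℂ u (D u)).re) (f g : ℂ) (hf : ‖f‖ ≤ 1)
    (hg : ‖g‖ ≤ 1) (x t y : H) (κ l : ℝ) :
    0 ≤ l ^ 2 * phi y y D + (phi t t D + (κ ^ 2 * phi x x D +
      (-κ * phi x t ((starRingEnd ℂ) f • D) + (-κ * phi t x (f • D) +
      (l * phi t y ((starRingEnd ℂ) g • D) + (l * phi y t (g • D) +
      (-(l * κ) * phi x y ((starRingEnd ℂ) (g * f) • D) + -(l * κ) * phi y x ((g * f) • D)))))))) := by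
  have h := hD (((l : ℂ) * (starRingEnd ℂ) g) • y + t - ((κ : ℂ) * f) • x)
  have hy := hD y
  have hx := hD x
  have f2 : f.re ^ 2 + f.im ^ 2 ≤ 1 := by
    have : ‖f‖ ^ 2 ≤ 1 := by nlinarith [norm_nonneg f]
    rw [← normSq_eq_norm_sq, normSq_apply] at this; nlinarith
  have g2 : g.re ^ 2 + g.im ^ 2 ≤ 1 := by
    have : ‖g‖ ^ 2 ≤ 1 := by nlinarith [norm_nonneg g]
    rw [← normSq_eq_norm_sq, normSq_apply] at this; nlinarith
  simp only [phi_apply, map_add, map_sub, map_smul, inner_add_left, inner_add_right, inner_sub_left,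
    inner_sub_right, inner_smul_left, inner_smul_right, smul_apply, map_mul, conj_ofReal,
    conj_conj] at h ⊢
  generalize inner ℂ y (D y) = a1 at *
  generalize inner ℂ y (D t) = a2 at *
  generalize inner ℂ y (D x) = a3 at *
  generalize inner ℂ t (D y) = a4 at *
  generalize inner ℂ t (D t) = a5 at *
  generalize inner ℂ t (D x) = a6 at *
  generalize inner ℂ x (D y) = a7 at *
  generalize inner ℂ x (D t) = a8 at *
  generalize inner ℂ x (D x) = a9 at *
  simp only [add_re, sub_re, mul_re, mul_im, ofReal_re, ofReal_im, conj_re, conj_im, add_im,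
    sub_im] at h ⊢
  nlinarith [mul_nonneg (mul_nonneg (sq_nonneg l) hy) (sub_nonneg.2 g2),
    mul_nonneg (mul_nonneg (sq_nonneg κ) hx) (sub_nonneg.2 f2)]

lemma bound_two (A : H →L[ℂ] H) {w0 : ℂ} (h0 : w0 ∈ numRange A) (P : Poly (numRange A) δ)
    (p : Polynomial ℂ) (hp : ∀ k, ∀ s ∈ Set.Icc (0 : ℝ) 1, ‖p.eval (P.σ k s)‖ ≤ 1) :
    ‖Polynomial.aeval A p‖ ≤ 2 := by
  obtain ⟨γ, hγ, hm⟩ := total_mass A h0 P
  have hB : numRange A ⊆ numRange A := subset_rfl
  have hε := P.hε
  have hγ' : (I * γ : ℂ) ≠ 0 := mul_ne_zero I_ne_zero (by exact_mod_cast hγ.ne')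
  have cR := res_cont P hB
  have cσ := P.cσ
  let D : ℕ → ℝ → H →L[ℂ] H := fun k s => (I * γ)⁻¹ • P.d k • resolvent A (P.σ k s)
  have cD : ∀ k, Continuous (D k) := fun k => by have := cR k; simp only [D]; fun_prop
  have hD : ∀ k s, D k s = ((P.l k / γ : ℝ) : ℂ) • P.a k • resolvent A (P.σ k s) := by
    intro k s
    simp only [D, smul_smul, Poly.d]
    congr 1; push_cast; field_simp
  have Dpos : ∀ k s u, 0 ≤ (inner ℂ u (D k s u)).re := by
    intro k s u
    rw [hD, smul_apply, inner_smul_right, re_ofReal_mul]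
    exact mul_nonneg (div_pos (P.hl k) hγ).le (res_pos P hB k s u)
  have Dn : ∀ k s, ‖D k s‖ ≤ P.l k / γ * P.ε⁻¹ := by
    intro k s
    rw [hD, norm_smul, norm_smul, P.ha, one_mul, norm_real, Real.norm_eq_abs,
      abs_of_pos (div_pos (P.hl k) hγ)]
    exact mul_le_mul_of_nonneg_left (res_norm P hB k s) (div_pos (P.hl k) hγ).le
  have m0 : Lam P.N D = 1 := by
    have := Lam_clm (N := P.N) (f := fun k s => P.d k • resolvent A (P.σ k s))
      (fun k => by have := cR k; fun_prop) (csm (I * γ)⁻¹)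
    rw [hm, csm_apply, smul_smul, inv_mul_cancel₀ hγ', one_smul] at this
    exact this
  have mono : ∀ j : ℕ, Lam P.N (fun k s => P.σ k s ^ j • D k s) = A ^ j := by
    intro j
    induction j with
    | zero => simpa using m0
    | succ j ih =>
      have e : ∀ k s, P.σ k s ^ (j + 1) • D k s =
          sone ((I * γ)⁻¹ * (((j + 1 : ℕ) : ℂ)⁻¹ * (((j + 1 : ℕ) : ℂ) * P.σ k s ^ j * P.d k))) +
            lmul A (P.σ k s ^ j • D k s) := by
        intro k s
        have r := res_mul P hB k s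
        rw [Algebra.algebraMap_eq_smul_one, sub_mul, smul_mul_assoc, one_mul, sub_eq_iff_eq_add] at r
        have hj : ((j + 1 : ℕ) : ℂ) ≠ 0 := by exact_mod_cast Nat.succ_ne_zero j
        rw [sone_apply, lmul_apply, mul_assoc _ _ (P.d k), inv_mul_cancel_left₀ hj]
        simp only [D, mul_smul_comm]
        rw [pow_succ, mul_smul, smul_comm (P.σ k s), smul_comm (P.σ k s), r]
        module
      have z0 : Lam P.N (fun k s => (I * γ)⁻¹ * (((j + 1 : ℕ) : ℂ)⁻¹ *
          (((j + 1 : ℕ) : ℂ) * P.σ k s ^ j * P.d k))) = 0 :=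
        Lam_prim (G := fun k s => (I * γ)⁻¹ * (((j + 1 : ℕ) : ℂ)⁻¹ * P.σ k s ^ (j + 1)))
          (fun k => by have := cσ k; fun_prop)
          (fun k s => by simpa using (((P.dσ k s).pow (j + 1)).const_mul ((j + 1 : ℕ) : ℂ)⁻¹).const_mul (I * γ)⁻¹)
          (fun k => (I * γ)⁻¹ * (((j + 1 : ℕ) : ℂ)⁻¹ * P.v k ^ (j + 1)))
          (fun k => by rw [P.σ0]) (fun k => by rw [P.σ1]) (by rw [P.closed])
      simp only [e]
      rw [Lam_add (fun k => by have := cσ k; fun_prop) (fun k => by have := cσ k; have := cD k; fun_prop),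
        Lam_clm (fun k => by have := cσ k; fun_prop),
        Lam_clm (fun k => by have := cσ k; have := cD k; fun_prop), z0, ih, map_zero, zero_add,
        lmul_apply, pow_succ']
  have cp : ∀ (q : Polynomial ℂ) k, Continuous fun s => q.eval (P.σ k s) := fun q k =>
    q.continuous.comp (cσ k)
  have poly : ∀ q : Polynomial ℂ, Lam P.N (fun k s => q.eval (P.σ k s) • D k s) = Polynomial.aeval A q := by
    intro q
    induction q using Polynomial.induction_on' with
    | add q r hq hr =>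
      simp only [Polynomial.eval_add, add_smul, map_add]
      rw [Lam_add (fun k => by have := cp q k; have := cD k; fun_prop)
        (fun k => by have := cp r k; have := cD k; fun_prop), hq, hr]
    | monomial n a =>
      simp only [Polynomial.eval_monomial, Polynomial.aeval_monomial, mul_smul]
      rw [← Algebra.smul_def, ← mono, ← csm_apply,
        ← Lam_clm (fun k => by have := cσ k; have := cD k; fun_prop)]
      rfl
  set T := Polynomial.aeval A p with hT
  let f : ℕ → ℝ → ℂ := fun k s => p.eval (P.σ k s)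
  have cf : ∀ k, Continuous (f k) := cp p
  have Tn : ∀ n : ℕ, Lam P.N (fun k s => f k s ^ n • D k s) = T ^ n := by
    intro n
    rw [hT, ← map_pow, ← poly]; simp only [Polynomial.eval_pow, f]
  let E : ℕ → H →L[ℂ] H := fun n => Lam P.N (fun k s => (starRingEnd ℂ) (f k s ^ n) • D k s)
  have cE : ∀ n k, Continuous fun s => (starRingEnd ℂ) (f k s ^ n) • D k s := fun n k =>
    (continuous_conj.comp ((cf k).pow n)).smul (cD k)
  have cT : ∀ n k, Continuous fun s => f k s ^ n • D k s := fun n k => ((cf k).pow n).smul (cD k)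
  have fn : ∀ n k, ∀ s ∈ Set.Icc (0 : ℝ) 1, ‖f k s ^ n‖ ≤ 1 := fun n k s hs => by
    rw [norm_pow]; exact pow_le_one₀ (norm_nonneg _) (hp k s hs)
  have main : ∀ (x y : H) (κ l : ℝ) (n : ℕ), 0 ≤ l ^ 2 * phi y y 1 + (phi (T x) (T x) 1 +
      (κ ^ 2 * phi x x 1 + (-κ * phi x (T x) (E 1) + (-κ * phi (T x) x (T ^ 1) +
      (l * phi (T x) y (E n) + (l * phi y (T x) (T ^ n) +
      (-(l * κ) * phi x y (E (n + 1)) + -(l * κ) * phi y x (T ^ (n + 1))))))))) := by
    intro x y κ l n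
    have := Lam_nonneg (N := P.N) fun k s hs =>
      pointwise (D k s) (Dpos k s) (f k s ^ 1) (f k s ^ n) (fn 1 k s hs) (fn n k s hs) x (T x) y κ l
    simp only [← pow_add] at this
    have c1 := cE 1
    have c2 := cE n
    have c3 := cE (n + 1)
    have c4 := cT 1
    have c5 := cT n
    have c6 := cT (n + 1)
    iterate 8 rw [Lam_add (fun k => by have := cD k; have := c1 k; have := c2 k; have := c3 k; have := c4 k; have := c5 k; have := c6 k; fun_prop) (fun k => by have := cD k; have := c1 k; have := c2 k; have := c3 k; have := c4 k; have := c5 k; have := c6 k; fun_prop)] at this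
    simp only [Lam_mul] at this
    rw [Lam_clm cD, Lam_clm cD, Lam_clm cD, Lam_clm c1, Lam_clm c4, Lam_clm c2, Lam_clm c5, Lam_clm c3,
      Lam_clm c6, m0, Tn, Tn, Tn] at this
    exact this
  have nn : ∀ u : H, (inner ℂ u u).re = ‖u‖ ^ 2 := fun u => inner_self_eq_norm_sq (𝕜 := ℂ) u
  apply key_lemma T E (∑ k ∈ range P.N, P.l k / γ * P.ε⁻¹)
  · intro n
    apply Lam_norm
    intro k s hs
    rw [norm_smul, RCLike.norm_conj]
    exact (mul_le_of_le_one_left (norm_nonneg _) (fn n k s hs)).trans (Dn k s)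
  · intro n
    rw [← Tn]
    apply Lam_norm
    intro k s hs
    rw [norm_smul]
    exact (mul_le_of_le_one_left (norm_nonneg _) (fn n k s hs)).trans (Dn k s)
  · intro n
    have hc : Commute T A := by
      have : A = Polynomial.aeval A (Polynomial.X : Polynomial ℂ) := by simp
      conv_rhs => rw [this]
      exact (Commute.all p Polynomial.X).map (Polynomial.aeval A)
    rw [← rmul_apply, ← lmul_apply T, ← Lam_clm (cE n), ← Lam_clm (cE n)]
    congr 1
    funext k s
    simp only [rmul_apply, lmul_apply, D, smul_mul_assoc, mul_smul_comm, (res_comm P hB k s hc).eq]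
  · intro x κ
    have := main x x κ 0 0
    simp only [phi_apply, one_apply_eq_self, nn, pow_one] at this
    linarith
  · intro x κ l n
    have := main x ((T ^ (n + 1)) x) κ l n
    have e : (T ^ n) (T x) = (T ^ (n + 1)) x := by rw [pow_succ]; rfl
    simp only [phi_apply, one_apply_eq_self, nn, pow_one, e] at this
    linarith

theorem crouzeix [Nontrivial H] (A : H →L[ℂ] H) (p : Polynomial ℂ) :
    ‖Polynomial.aeval A p‖ ≤ 2 * sSup ((fun z => ‖p.eval z‖) '' numRange A) := by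
  have hR : ∀ w ∈ numRange A, ‖w‖ ≤ ‖A‖ := by
    rintro _ ⟨x, hx, rfl⟩
    refine (norm_inner_le_norm _ _).trans ?_
    have := A.le_opNorm x
    rw [hx] at this ⊢; linarith
  obtain ⟨x, hx⟩ := exists_norm_eq H zero_le_one
  have h0 : inner ℂ x (A x) ∈ numRange A := ⟨x, hx, rfl⟩
  have hK := isCompact_closedBall (0 : ℂ) (‖A‖ + 1)
  have hbdd : BddAbove ((fun z => ‖p.eval z‖) '' numRange A) := by
    refine (hK.bddAbove_image (f := fun z => ‖p.eval z‖) p.continuous.norm.continuousOn).mono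
      (Set.image_mono fun w hw => ?_)
    rw [mem_closedBall_zero_iff]; linarith [hR w hw]
  set M := sSup ((fun z => ‖p.eval z‖) '' numRange A) with hM
  have hle : ∀ w ∈ numRange A, ‖p.eval w‖ ≤ M := fun w hw => le_csSup hbdd ⟨w, hw, rfl⟩
  have hM0 : 0 ≤ M := le_trans (norm_nonneg _) (hle _ h0)
  apply le_of_forall_pos_le_add
  intro η hη
  obtain ⟨δ, hδ, huc⟩ := Metric.uniformContinuousOn_iff_le.1
    (hK.uniformContinuousOn_of_continuous (f := fun z => p.eval z) p.continuous.continuousOn)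
    (η / 2) (by linarith)
  obtain ⟨P⟩ := exists_poly (convex_numRange A) ⟨_, h0⟩ hR (lt_min hδ one_pos)
  have hpos : 0 < M + η / 2 := by linarith
  have := bound_two A h0 P (Polynomial.C (((M + η / 2)⁻¹ : ℝ) : ℂ) * p) (by
    intro k s hs
    obtain ⟨w, hw, hw2⟩ := P.nearσ (convex_numRange A) k hs
    have a1 := hR w hw
    have a2 := huc (P.σ k s) (by
      rw [mem_closedBall_zero_iff]
      have := norm_add_le (P.σ k s - w) w
      rw [sub_add_cancel] at this
      linarith [min_le_right δ 1]) w (by rw [mem_closedBall_zero_iff]; linarith)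
      (by rw [dist_eq_norm]; exact hw2.trans (min_le_left _ _))
    rw [dist_eq_norm] at a2
    have a3 := norm_add_le (p.eval (P.σ k s) - p.eval w) (p.eval w)
    rw [sub_add_cancel] at a3
    rw [Polynomial.eval_mul, Polynomial.eval_C, norm_mul, norm_real, Real.norm_eq_abs,
      abs_of_pos (inv_pos.2 hpos), ← div_eq_inv_mul, div_le_one hpos]
    linarith [hle w hw])
  rw [map_mul, Polynomial.aeval_C, ← Algebra.smul_def, norm_smul, norm_real, Real.norm_eq_abs,
    abs_of_pos (inv_pos.2 hpos), ← div_eq_inv_mul, div_le_iff₀ hpos] at this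
  linarith

end Vale.Agent.P123
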